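import Vale.Agent.P066.Lab.LSW.Stab
import Vale.Agent.P066.Lab.H66.W3b
import Vale.Agent.P066.Lab.LB1b

/-!
# [LSW] W3: good words with different multisets of letters are independent
-/

set_option autoImplicit false
set_option linter.unusedSectionVars false

open Finset MvPolynomial

namespace Vale.Agent.P066.Lab.H828

open Vale.Agent.P066.Lab Vale.Agent.P066.Lab.LSW Vale.Agent.P066.Lab.LSW.H66
open Vale.Agent.P066.Theta.H422 (Alt TP mem_TP mem_Alt)

noncomputable section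

variable {n : ℕ} {a : Fin n → Fin n → ℕ} {θ : Fin n → ℤ}

/-! ### the functional -/

section Functional

variable {S : Type} [Fintype S] [DecidableEq S] {a' : S → S → ℕ} {θ' : S → ℤ}

/-- the value of the dual functional on the leading part -/
def Has (a' : S → S → ℕ) (θ' : S → ℤ) (c : S → ℕ) (d : ℕ) (α : ℕ →₀ ℕ)
    (φ : (MvPolynomial S ℚ ⧸ JC ℚ a' θ' c) →ₗ[ℚ] ℚ) (f : MvPolynomial S ℚ) (x : ℚ) : Prop :=
  ∃ X : MvPolynomial ℕ (MvPolynomial S ℚ ⧸ JC ℚ a' θ' c),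
    Sb ℚ a' θ' c d f = PU a' (MvPolynomial S ℚ ⧸ JC ℚ a' θ' c) c * X ∧ φ (coeff α X) = x

variable {c : S → ℕ} {d : ℕ} {α : ℕ →₀ ℕ} {φ : (MvPolynomial S ℚ ⧸ JC ℚ a' θ' c) →ₗ[ℚ] ℚ}

theorem Has.unique {f : MvPolynomial S ℚ} {x y : ℚ} (h : Has a' θ' c d α φ f x)
    (h' : Has a' θ' c d α φ f y) : x = y := by
  obtain ⟨X, hX, rfl⟩ := h
  obtain ⟨Y, hY, rfl⟩ := h'
  have h1 : PU a' (MvPolynomial S ℚ ⧸ JC ℚ a' θ' c) c * (X - Y) = 0 := by
    rw [mul_sub, ← hX, ← hY, sub_self]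
  rw [sub_eq_zero.1 (PU_mul_eq_zero c h1)]

theorem Has.of_Sb {f : MvPolynomial S ℚ} (h : Sb ℚ a' θ' c d f = 0) : Has a' θ' c d α φ f 0 :=
  ⟨0, by rw [h, mul_zero], by rw [coeff_zero, map_zero]⟩

theorem Has.smul {f : MvPolynomial S ℚ} {x : ℚ} (r : ℚ) (h : Has a' θ' c d α φ f x) :
    Has a' θ' c d α φ (r • f) (r * x) := by
  obtain ⟨X, hX, rfl⟩ := h
  refine ⟨r • X, ?_, ?_⟩
  · rw [Sb_smul, hX, mul_smul_comm]
  · rw [coeff_smul, map_smul, smul_eq_mul]

theorem Has.add {f g : MvPolynomial S ℚ} {x y : ℚ} (h : Has a' θ' c d α φ f x)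
    (h' : Has a' θ' c d α φ g y) : Has a' θ' c d α φ (f + g) (x + y) := by
  obtain ⟨X, hX, rfl⟩ := h
  obtain ⟨Y, hY, rfl⟩ := h'
  refine ⟨X + Y, ?_, ?_⟩
  · rw [H749.Sb_add, hX, hY, mul_add]
  · rw [coeff_add, map_add]

theorem Has.sum {κ : Type*} (T : Finset κ) {f : κ → MvPolynomial S ℚ} {x : κ → ℚ}
    (h : ∀ i ∈ T, Has a' θ' c d α φ (f i) (x i)) :
    Has a' θ' c d α φ (∑ i ∈ T, f i) (∑ i ∈ T, x i) := by
  classical
  induction T using Finset.induction_on with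
  | empty =>
    rw [sum_empty, sum_empty]
    refine Has.of_Sb ?_
    unfold Sb
    rw [map_zero, map_zero, map_zero]
  | insert i T hi ih =>
    rw [sum_insert hi, sum_insert hi]
    exact (h i (mem_insert_self _ _)).add (ih fun j hj => h j (mem_insert_of_mem hj))

/-- elements of smaller level do not matter -/
theorem Has.congr {f g : MvPolynomial S ℚ} {x : ℚ} (h : Has a' θ' c d α φ f x)
    (h' : Sb ℚ a' θ' c d (g - f) = 0) : Has a' θ' c d α φ g x := by
  have := h.add (Has.of_Sb (α := α) (φ := φ) h')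
  rwa [add_sub_cancel, add_zero] at this

end Functional

variable {L : Letters a θ}

section Words

variable {r0 : ℕ}

/-- the degree of the leading part of a word -/
def dW (w0 : Fin r0 → Ltr L) : ℕ :=
  H749.CN (aT a (tyW (clsW w0))) (cW (clsW w0)) + (αW w0).degree

theorem dW_spec (w0 : Fin r0 → Ltr L) :
    2 * (dW w0 : ℤ) + nb (cW (clsW w0)) = lev w0 + 2 * CC (aT a (tyW (clsW w0))) (cW (clsW w0)) := by
  have h1 := H749.CN_cast (a := aT a (tyW (clsW w0))) (cW (clsW w0))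
  have h2 := lev_eq w0
  unfold dW
  push_cast
  omega

theorem vW_eq_vD (w0 : Fin r0 → Ltr L) : vW w0 = vD L (clsW w0) fun j => (w0 j).2.1 := rfl

/-- the value at `P_w` itself -/
theorem has_self (hs : SymD a θ) (w0 : Fin r0 → Ltr L)
    {φ : (MvPolynomial (SW (clsW w0)) ℚ ⧸
      JC ℚ (aT a (tyW (clsW w0))) (tT θ (tyW (clsW w0))) (cW (clsW w0))) →ₗ[ℚ] ℚ}
    (hφ : φ (Ideal.Quotient.mk _ (vD L (clsW w0) fun j => (w0 j).2.1)) = 1) :
    Has (aT a (tyW (clsW w0))) (tT θ (tyW (clsW w0))) (cW (clsW w0)) (dW w0) (αW w0) φ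
      (PW w0) 1 := by
  refine ⟨monomial (αW w0) (Ideal.Quotient.mk _ (vW w0)), ?_, ?_⟩
  · refine H749.Sb_KC_mul_term (Zc_cW _ fun _ => cls_wt _) (H66.Gc_vW hs w0) (αW_support w0) ?_
    have h1 := H749.CN_cast (a := aT a (tyW (clsW w0))) (cW (clsW w0))
    show ((dW w0 : ℕ) : ℤ) =
      CC (aT a (tyW (clsW w0))) (cW (clsW w0)) + ((αW w0).degree : ℤ)
    unfold dW
    push_cast
    rw [h1]
  · rw [coeff_monomial, if_pos rfl]
    exact hφ

/-- The value at the transport of `P_w`: zero, unless the word is a reordering of `w0`. -/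
theorem has_word (hs : SymD a θ) (w0 : Fin r0 → Ltr L)
    {φ : (MvPolynomial (SW (clsW w0)) ℚ ⧸
      JC ℚ (aT a (tyW (clsW w0))) (tT θ (tyW (clsW w0))) (cW (clsW w0))) →ₗ[ℚ] ℚ}
    (hφ : ∀ y, (y ≠ fun j => (w0 j).2.1) →
      φ (Ideal.Quotient.mk _ (vD L (clsW w0) y)) = 0)
    {r : ℕ} (w : Fin r → Ltr L) (hle : lev w ≤ lev w0) {ψ : SW (clsW w) ≃ SW (clsW w0)}
    (hψ : TB (tyW (clsW w)) (tyW (clsW w0)) ψ) :
    ∃ x : ℚ, Has (aT a (tyW (clsW w0))) (tT θ (tyW (clsW w0))) (cW (clsW w0)) (dW w0) (αW w0) φ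
      (rename ψ (PW w)) x ∧
      (x ≠ 0 → ∃ π : Fin r ≃ Fin r0, (∀ s, (ψ s).1 = π s.1) ∧ ∀ j, w (π.symm j) = w0 j) := by
  classical
  have hc0 : Zc (tT θ (tyW (clsW w0))) (cW (clsW w0)) := Zc_cW _ fun _ => cls_wt _
  by_cases hcase : lev w < lev w0 ∨
      ¬ ∀ s t : SW (clsW w), s.1 = t.1 ↔ cW (clsW w0) (ψ s) = cW (clsW w0) (ψ t)
  · exact ⟨0, Has.of_Sb (Sb_other hs w hψ hc0 (dW_spec w0) hle hcase), fun h => absurd rfl h⟩
  · rw [not_or, not_not] at hcase
    obtain ⟨h1, h2⟩ := hcase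
    have hlev : lev w = lev w0 := le_antisymm hle (not_lt.1 h1)
    obtain ⟨π, hπ⟩ := exists_perm_of_blocks (D' := clsW w) (D := clsW w0)
      (fun j => cls_ne (w j)) (fun j => cls_ne (w0 j)) (ψ := ψ) (by
        intro s t
        rw [h2 s t]
        exact ⟨fun h => Fin.ext h, fun h => congrArg Fin.val h⟩)
    -- the two words have the same length
    have hr : r = r0 := by
      have := Fintype.card_congr π
      simpa using this
    subst hr
    have hc : cW (clsW w0) ∘ ψ = exN π ∘ cW (clsW w) := by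
      funext s
      show ((ψ s).1 : ℕ) = exN π ((s.1 : Fin r) : ℕ)
      rw [hπ, exN_val]
    have hSb := Sb_same hs w hψ (exN_injective π) hc (e := dW w0) (by
      rw [dW_spec w0, hlev])
    obtain ⟨y, ε, hy, hv⟩ := word_transport w hψ hπ
    refine ⟨_, ⟨((-1 : ℚ) ^ invN (aT a (tyW (clsW w))) (exN π) (cW (clsW w))) •
        monomial ((αW w).mapDomain (exN π)) (Ideal.Quotient.mk
          (JC ℚ (aT a (tyW (clsW w0))) (tT θ (tyW (clsW w0))) (cW (clsW w0)))
          (rename ψ (vW w))), ?_, rfl⟩, ?_⟩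
    · rw [hSb, mul_smul_comm]
    · intro hx
      rw [coeff_smul, map_smul, coeff_monomial] at hx
      by_cases hα : (αW w).mapDomain (exN π) = αW w0
      · rw [if_pos hα, hv] at hx
        have hy0 : y = fun j => (w0 j).2.1 := by
          by_contra hne
          apply hx
          have h3 : Ideal.Quotient.mk
              (JC ℚ (aT a (tyW (clsW w0))) (tT θ (tyW (clsW w0))) (cW (clsW w0)))
              (ε • vD L (clsW w0) y) = ε • Ideal.Quotient.mk _ (vD L (clsW w0) y) :=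
            map_smul (Ideal.Quotient.mkₐ ℚ _) ε _
          rw [h3, map_smul, hφ y hne, smul_zero, smul_zero]
        refine ⟨π, hπ, fun j => ?_⟩
        have hm : ml (w (π.symm j)) = ml (w0 j) := by
          have h4 := αW_comp w π.symm
          rw [Equiv.symm_symm, hα] at h4
          rw [← αW_apply w0 j, ← h4, αW_apply]
          rfl
        rw [hy j, hy0, hm]
        rfl
      · rw [if_neg hα, map_zero, smul_zero] at hx
        exact absurd rfl hx

theorem msW_eq {r : ℕ} {w : Fin r → Ltr L} {w0 : Fin r0 → Ltr L} (π : Fin r ≃ Fin r0)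
    (h : ∀ j, w (π.symm j) = w0 j) : msW w = msW w0 := by
  have hr : r = r0 := by
    have := Fintype.card_congr π
    simpa using this
  subst hr
  unfold msW
  have h1 : w0 = w ∘ π.symm := funext fun j => (h j).symm
  rw [h1, ← Multiset.map_map]
  congr 1
  exact (Multiset.map_univ_val_equiv π.symm).symm

variable {d : Fin n →₀ ℕ}

/-- A word with another multiset of letters has value zero. -/
theorem has_other (hs : SymD a θ) (w0 : Fin r0 → Ltr L)
    {φ : (MvPolynomial (SW (clsW w0)) ℚ ⧸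
      JC ℚ (aT a (tyW (clsW w0))) (tT θ (tyW (clsW w0))) (cW (clsW w0))) →ₗ[ℚ] ℚ}
    (hφ : ∀ y, (y ≠ fun j => (w0 j).2.1) →
      φ (Ideal.Quotient.mk _ (vD L (clsW w0) y)) = 0)
    {r : ℕ} (w : Fin r → Ltr L) (hle : lev w ≤ lev w0) {e : SW (clsW w) ≃ Pt d}
    (he : TB (tyW (clsW w)) Sigma.fst e) {e0 : SW (clsW w0) ≃ Pt d}
    (he0 : TB (tyW (clsW w0)) Sigma.fst e0) (hms : msW w ≠ msW w0) :
    Has (aT a (tyW (clsW w0))) (tT θ (tyW (clsW w0))) (cW (clsW w0)) (dW w0) (αW w0) φ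
      (rename e0.symm (gW w e)) 0 := by
  unfold gW
  rw [antis_apply, map_sum]
  have h0 : (0 : ℚ) = ∑ σ ∈ TP (Sigma.fst : Pt d → Fin n), (0 : ℚ) := by rw [sum_const_zero]
  rw [h0]
  refine Has.sum _ fun σ hσ => ?_
  obtain ⟨x, hx, hx0⟩ := has_word hs w0 hφ w hle (ψ := e.trans (Equiv.trans σ e0.symm))
    (he.trans ((tb_of_mem_TP hσ).trans he0.symm))
  have hxz : x = 0 := by
    by_contra hne
    obtain ⟨π, _, hπ⟩ := hx0 hne
    exact hms (msW_eq π hπ)
  subst hxz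
  have h1 := hx.smul (sg σ)
  rw [mul_zero] at h1
  rw [map_smul, rename_rename, rename_rename]
  exact h1

/-- A good word has positive value. -/
theorem has_good (hs : SymD a θ) (w0 : Fin r0 → Ltr L) (hgood : Good w0)
    {φ : (MvPolynomial (SW (clsW w0)) ℚ ⧸
      JC ℚ (aT a (tyW (clsW w0))) (tT θ (tyW (clsW w0))) (cW (clsW w0))) →ₗ[ℚ] ℚ}
    (hφ1 : φ (Ideal.Quotient.mk _ (vD L (clsW w0) fun j => (w0 j).2.1)) = 1)
    (hφ : ∀ y, (y ≠ fun j => (w0 j).2.1) →
      φ (Ideal.Quotient.mk _ (vD L (clsW w0) y)) = 0)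
    {e0 : SW (clsW w0) ≃ Pt d} (he0 : TB (tyW (clsW w0)) Sigma.fst e0) :
    ∃ x : ℚ, 0 < x ∧
    Has (aT a (tyW (clsW w0))) (tT θ (tyW (clsW w0))) (cW (clsW w0)) (dW w0) (αW w0) φ
      (rename e0.symm (gW w0 e0)) x := by
  classical
  have hc0 : Zc (tT θ (tyW (clsW w0))) (cW (clsW w0)) := Zc_cW _ fun _ => cls_wt _
  have h1 : rename e0.symm (gW w0 e0) =
      ∑ g ∈ TP (tyW (clsW w0)), sg g • rename g (PW w0) := by
    unfold gW
    rw [antis_rename_equiv he0, rename_rename, antis_apply]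
    have : (e0.symm : Pt d → SW (clsW w0)) ∘ e0 = id := by
      funext s
      exact e0.symm_apply_apply s
    rw [this, rename_id]
    rfl
  have h2 : ∀ g ∈ TP (tyW (clsW w0)), ∃ x : ℚ, 0 ≤ x ∧
      Has (aT a (tyW (clsW w0))) (tT θ (tyW (clsW w0))) (cW (clsW w0)) (dW w0) (αW w0) φ
        (sg g • rename g (PW w0)) x := by
    intro g hg
    obtain ⟨x, hx, hx0⟩ := has_word hs w0 hφ w0 le_rfl (ψ := g) (tb_of_mem_TP hg)
    by_cases hxz : x = 0
    · subst hxz
      have h3 := hx.smul (sg g)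
      rw [mul_zero] at h3
      exact ⟨0, le_rfl, h3⟩
    · obtain ⟨π, hπ, hw⟩ := hx0 hxz
      have hHG : π ∈ H402.HG w0 := by
        intro p
        have := hw (π p)
        rw [Equiv.symm_apply_apply] at this
        exact this.symm
      have h3 := V828.stab hs w0 hgood π hHG g hg hπ
      refine ⟨1, zero_le_one, (has_self hs w0 hφ1).congr ?_⟩
      exact Sb_eq_zero_of_lev (n := lev w0) (h3 _ hc0) (dW_spec w0)
  choose! x hx0 hx using h2
  refine ⟨∑ g ∈ TP (tyW (clsW w0)), x g, ?_, ?_⟩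
  · refine Finset.sum_pos' hx0 ⟨1, one_mem_TP _, ?_⟩
    have h3 := hx 1 (one_mem_TP _)
    have h4 : rename (1 : Equiv.Perm (SW (clsW w0))) (PW w0) = PW w0 := by
      rw [Equiv.Perm.coe_one, rename_id]
      rfl
    rw [sg_one, one_smul, h4] at h3
    rw [h3.unique (has_self hs w0 hφ1)]
    exact zero_lt_one
  · rw [h1]
    exact Has.sum _ hx

end Words

theorem J0_le_JC_cW {r : ℕ} (D : Fin r → Fin n →₀ ℕ) :
    J0 ℚ (aT a (tyW D)) (tT θ (tyW D)) univ ≤ JC ℚ (aT a (tyW D)) (tT θ (tyW D)) (cW D) := by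
  rw [← JC_zero_eq]
  exact JC_le_of_ref fun _ _ _ => rfl

/-- **[W3]** Good words with different multisets of letters are independent. -/
theorem w3 : W3 := by
  classical
  intro n a θ hs L d ι r w e hTB hGood hinj
  rw [linearIndependent_iff']
  intro s g hsum
  by_contra hne
  push Not at hne
  obtain ⟨i1, hi1, hgi1⟩ := hne
  obtain ⟨i0, hi0, hmax⟩ := exists_max_image (s.filter fun i => g i ≠ 0) (fun i => lev (w i))
    ⟨i1, mem_filter.2 ⟨hi1, hgi1⟩⟩
  rw [mem_filter] at hi0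
  have hF : ∑ i ∈ s, g i • gW (w i) (e i) ∈ J0 ℚ (aP a d) (θP θ d) univ := by
    rw [← Ideal.Quotient.eq_zero_iff_mem, map_sum, ← hsum]
    refine sum_congr rfl fun i _ => ?_
    exact map_smul (Ideal.Quotient.mkₐ ℚ (J0 ℚ (aP a d) (θP θ d) univ)) (g i) _
  obtain ⟨φ, hφ1, hφ0⟩ := exists_dual_vD L (clsW (w i0)) fun j => (w i0 j).2.1
  have hF' : rename (e i0).symm (∑ i ∈ s, g i • gW (w i) (e i)) ∈
      J0 ℚ (aT a (tyW (clsW (w i0)))) (tT θ (tyW (clsW (w i0)))) univ :=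
    (rename_mem_J0 (hTB i0).symm _).2 hF
  have hZ : Has (aT a (tyW (clsW (w i0)))) (tT θ (tyW (clsW (w i0)))) (cW (clsW (w i0)))
      (dW (w i0)) (αW (w i0)) φ
      (rename (e i0).symm (∑ i ∈ s, g i • gW (w i) (e i))) 0 :=
    Has.of_Sb (Sb_eq_zero_of_mem (J0_le_JC_cW _ hF') _)
  obtain ⟨x, hxpos, hx⟩ := has_good hs (w i0) (hGood i0) hφ1 hφ0 (hTB i0)
  have hS : Has (aT a (tyW (clsW (w i0)))) (tT θ (tyW (clsW (w i0)))) (cW (clsW (w i0)))
      (dW (w i0)) (αW (w i0)) φ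
      (rename (e i0).symm (∑ i ∈ s, g i • gW (w i) (e i)))
      (∑ i ∈ s, if i = i0 then g i0 * x else 0) := by
    rw [map_sum]
    refine Has.sum _ fun i hi => ?_
    rw [map_smul]
    by_cases hii : i = i0
    · subst hii
      rw [if_pos rfl]
      exact hx.smul (g i)
    · rw [if_neg hii]
      by_cases hg0 : g i = 0
      · rw [hg0, zero_smul]
        refine Has.of_Sb ?_
        unfold Sb
        rw [map_zero, map_zero, map_zero]
      · have h1 := has_other hs (w i0) hφ0 (w i) (hmax i (mem_filter.2 ⟨hi, hg0⟩)) (hTB i)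
          (hTB i0) (fun h => hii (hinj h))
        have h2 := h1.smul (g i)
        rwa [mul_zero] at h2
  rw [Finset.sum_ite_eq' s i0, if_pos hi0.1] at hS
  have h3 := hS.unique hZ
  rcases mul_eq_zero.1 h3 with h | h
  · exact hi0.2 h
  · exact hxpos.ne' h

end

end Vale.Agent.P066.Lab.H828
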